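import Crest.Agent.X262.Wr72.Hil0
import Crest.Agent.X262.Vol77.Defs

/-!
# Row 262, Wr72 (helper72), part 4: the uniform Hilbert bound

* `sec_pn`, `finrank_pn`, `bnum_pn_le` : sections and degree of the hyperplane class of `P^d`;
* `Mdl.bnum_le` : the degree of a model is at most the degree of the map to `P^d`;
* `hil : Vol77.HilStmt`.
-/

set_option autoImplicit false
set_option linter.unusedSectionVars false

noncomputable section

namespace Crest.Agent.X262.Wr72

open Module MvPolynomial WithZero Filter Topology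
open Crest.Agent.X277 Crest.Agent.X277.BD Crest.Agent.X277.Jet Crest.Agent.X277.Cns
open List (replicate)

variable {k F : Type} [Field k] [Field F] [Algebra k F] {d : ℕ}

/-- sections of multiples of the hyperplane class of projective space -/
theorem sec_pn {x : Fin d → F} (hx : AlgebraicIndependent k x)
    (hF : IntermediateField.adjoin k (Set.range x) = ⊤) {m : ℕ} {g : F}
    (hg : g ∈ (m • mxf k (Fin.cons 1 x : Fin (d + 1) → F)).Sec) :
    ∃ p : MvPolynomial (Fin d) k, p.totalDegree ≤ m ∧ aeval x p = g := by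
  have h : ∀ V : RZ k F, ∃ j, V.v g ≤ V.v ((Fin.cons 1 x : Fin (d + 1) → F) j ^ m) := fun V => by
    obtain ⟨j, hj⟩ := exists_val_mxf (k := k) (s := (Fin.cons 1 x : Fin (d + 1) → F))
      ⟨0, one_ne_zero⟩ V
    exact ⟨j, by rw [map_pow, hj, ← val_nsmul]; exact hg V⟩
  refine exists_poly_of_val hx hF (isIntegral_of_val fun V hV => ?_) fun v hv h1 => ?_
  · obtain ⟨j, hj⟩ := h ⟨V, KV.of_le hV⟩
    refine (RZ.le_one_iff (V := ⟨V, KV.of_le hV⟩)).1 (hj.trans (RZ.le_one_iff.2 (pow_mem ?_ m)))
    exact Fin.cases (one_mem _) (fun j => hV _ ⟨X j, aeval_X x j⟩) j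
  · obtain ⟨j, hj⟩ := h (rz v hv)
    rw [v_rz_le_iff, map_pow] at hj
    refine hj.trans ((pow_le_pow_left' (b := exp (1 : ℤ)) ?_ m).trans (by simp [← exp_nsmul]))
    refine Fin.cases ?_ h1 j
    rw [Fin.cons_zero, map_one, ← exp_zero, exp_le_exp]
    exact zero_le_one

theorem finrank_pn {x : Fin d → F} (hx : AlgebraicIndependent k x)
    (hF : IntermediateField.adjoin k (Set.range x) = ⊤) (m : ℕ) :
    finrank k (m • mxf k (Fin.cons 1 x : Fin (d + 1) → F)).Sec ≤ (m + d).choose d := by
  have h1 : (m • mxf k (Fin.cons 1 x : Fin (d + 1) → F)).Sec ≤ Submodule.span k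
      (Set.range fun β : Le (Fin d) m => aeval x (monomial β.1 (1 : k))) := fun g hg => by
    obtain ⟨p, hp, rfl⟩ := sec_pn hx hF hg
    rw [p.as_sum, map_sum]
    refine Submodule.sum_mem _ fun β hβ => ?_
    rw [← mul_one (coeff β p), ← smul_eq_mul, ← smul_monomial, map_smul]
    exact Submodule.smul_mem _ _ (Submodule.subset_span
      ⟨⟨β, mem_Le.2 ((le_totalDegree hβ).trans hp)⟩, rfl⟩)
  have := Module.Finite.span_of_finite k
    (Set.finite_range fun β : Le (Fin d) m => aeval x (monomial β.1 (1 : k)))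
  refine (Submodule.finrank_mono h1).trans ((finrank_range_le_card _).trans ?_)
  rw [Fintype.card_coe, card_Le, Fintype.card_fin]

variable [CharZero k] [Algebra.EssFiniteType k F]

/-- the degree of projective space -/
theorem bnum_pn_le {x : Fin d → F} (hx : AlgebraicIndependent k x)
    (hF : IntermediateField.adjoin k (Set.range x) = ⊤) (hd : dim k F = d) :
    bnum (replicate d (mxf k (Fin.cons 1 x : Fin (d + 1) → F))) ≤ 1 := by
  have h1 := (free_mxf (k := k) (Fin.cons 1 x : Fin (d + 1) → F)).nef.tendsto 0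
  have h2 : Tendsto (fun m : ℕ => (1 + (d : ℝ) / m) ^ d) atTop (𝓝 ((1 + 0) ^ d)) :=
    (tendsto_const_nhds.add (tendsto_const_div_atTop_nhds_zero_nat _)).pow d
  have h3 := le_of_tendsto_of_tendsto h1 h2 ((eventually_gt_atTop 0).mono fun m hm => by
    have h0 : (0 : ℝ) < m := by exact_mod_cast hm
    have h4 : d.factorial * finrank k (m • mxf k (Fin.cons 1 x : Fin (d + 1) → F)).Sec ≤
        (m + d) ^ d := by
      refine (Nat.mul_le_mul_left _ (finrank_pn hx hF m)).trans ?_
      rw [← Nat.descFactorial_eq_factorial_mul_choose]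
      exact Nat.descFactorial_le_pow _ _
    change nh 0 _ m ≤ (1 + (d : ℝ) / m) ^ d
    rw [nh, zero_add, hd, div_le_iff₀ (pow_pos h0 d), ← mul_pow, add_mul, div_mul_cancel₀ _ h0.ne', one_mul]
    exact_mod_cast h4)
  rw [hd, add_zero, one_pow] at h3
  exact_mod_cast h3

theorem qf_eq {ι : Type*} (t : ι → F) {i : ι} (hi : t i ≠ 0) :
    qf k t = IntermediateField.adjoin k (Set.range fun j => t j / t i) := by
  refine le_antisymm (IntermediateField.adjoin_le_iff.2 ?_) (IntermediateField.adjoin_le_iff.2 ?_)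
  · rintro _ ⟨l, j, rfl⟩
    rw [← div_div_div_cancel_right₀ hi]
    exact div_mem (IntermediateField.subset_adjoin _ _ ⟨j, rfl⟩)
      (IntermediateField.subset_adjoin _ _ ⟨l, rfl⟩)
  · rintro _ ⟨j, rfl⟩
    exact div_mem_qf t i j

/-- the affine coordinates of a model, in the field of the projective space -/
def xx (M : Mdl k F) (j : Fin (dim k F)) : qf k M.t := ⟨M.t j.succ / M.t 0, div_mem_qf _ _ _⟩

theorem qf_eq_xx (M : Mdl k F) :
    qf k M.t = IntermediateField.adjoin k (Set.range fun j => (xx M j : F)) := by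
  refine (qf_eq M.t (M.c.t_ne 0)).trans
    (le_antisymm (IntermediateField.adjoin_le_iff.2 ?_) (IntermediateField.adjoin.mono _ _ _ ?_))
  · rintro _ ⟨j, rfl⟩
    refine Fin.cases ?_ (fun j => IntermediateField.subset_adjoin _ _ ⟨j, rfl⟩) j
    simp [M.c.t_ne 0]
  · rintro _ ⟨j, rfl⟩
    exact ⟨j.succ, rfl⟩

theorem adjoin_xx (M : Mdl k F) : IntermediateField.adjoin k (Set.range (xx M)) = ⊤ := by
  refine IntermediateField.map_injective (qf k M.t).val ?_
  rw [IntermediateField.adjoin_map, ← Set.range_comp, ← AlgHom.fieldRange_eq_map,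
    IntermediateField.fieldRange_val]
  exact (qf_eq_xx M).symm

theorem ai_xx (M : Mdl k F) : AlgebraicIndependent k (xx M) := by
  have := M.fin
  have h1 : Algebra.IsAlgebraic (IntermediateField.adjoin k (Set.range fun j => (xx M j : F))) F := by
    rw [← qf_eq_xx]
    infer_instance
  have h2 := IntermediateField.isAlgebraic_adjoin_iff_top.1 h1
  have h3 := (Algebra.IsAlgebraic.isTranscendenceBasis_of_lift_le_trdeg_of_finite k
    (fun j => (xx M j : F)) (by rw [trdeg_eq_dim]; simp)).1
  exact AlgebraicIndependent.of_comp (qf k M.t).val h3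

theorem forall₂_rep {α : Type*} {r : α → α → Prop} {a b : α} (h : r a b) (n : ℕ) :
    List.Forall₂ r (replicate n a) (replicate n b) := by
  induction n with
  | zero => exact List.Forall₂.nil
  | succ n ih => exact List.Forall₂.cons h ih

/-- the degree of a model is at most the degree of the map to projective space -/
theorem Mdl.bnum_le (M : Mdl k F) : bnum (replicate (dim k F) M.H) ≤ finrank (qf k M.t) F := by
  have := M.fin
  have : Algebra.EssFiniteType k (qf k M.t) := by
    rw [IntermediateField.essFiniteType_iff, qf_eq_xx]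
    exact IntermediateField.fg_adjoin_of_finite (Set.finite_range _)
  let α := IsScalarTower.toAlgHom k (qf k M.t) F
  have h0 : deg α = finrank (qf k M.t) F := deg_tower
  have hd : dim k (qf k M.t) = dim k F :=
    ((deg_pos_iff α).1 (h0 ▸ Module.finrank_pos)).symm
  have h1 : Lin M.H (pb α (mxf k (Fin.cons 1 (xx M) : Fin (dim k F + 1) → qf k M.t))) := by
    have h2 : (fun i => α ((Fin.cons 1 (xx M) : Fin (dim k F + 1) → qf k M.t) i)) =
        fun i => M.t i / M.t 0 := funext fun i =>
      Fin.cases (by simp [M.c.t_ne 0]) (fun _ => rfl) i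
    rw [pb_mxf, h2]
    refine ⟨M.t 0, M.c.t_ne 0, (eq_mxf (fun i V => ?_) fun V => ?_).symm⟩
    · rw [val_add, val_pr (M.c.t_ne 0), ← div_le_iff₀ (RZ.pos (M.c.t_ne 0)), ← map_div₀]
      exact mem_Sec_mxf (k := k) (fun i => M.t i / M.t 0) i V
    · obtain ⟨i, hi⟩ := exists_val_mxf (k := k) (s := fun i => M.t i / M.t 0)
        ⟨0, by simp [M.c.t_ne 0]⟩ V
      exact ⟨i, by rw [val_add, val_pr (M.c.t_ne 0), ← hi, ← map_mul,
        div_mul_cancel₀ _ (M.c.t_ne 0)]⟩
  have h3 := bnum_congr (forall₂_rep h1 (dim k F)) []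
  rw [List.append_nil, List.append_nil, ← List.map_replicate (f := BD.pb α), bnum_pb, h0] at h3
  rw [h3]
  exact mul_le_of_le_one_right (by positivity) (bnum_pn_le (ai_xx M) (adjoin_xx M) hd)

omit [CharZero k] [Algebra.EssFiniteType k F] in
theorem adjoin_top (L : IntermediateField k F) [FiniteDimensional L F] {t : F} (ht : t ≠ 0)
    {ι : Type*} {l : ι → F} (hq : qf k l = ⊤) :
    Algebra.adjoin L (insert 1 (Set.range fun j => l j / t)) = ⊤ := by
  have h1 : Algebra.IsAlgebraic L F := Algebra.IsAlgebraic.of_finite _ _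
  rw [← IntermediateField.adjoin_toSubalgebra_of_isAlgebraic fun x _ => h1.isAlgebraic x]
  obtain ⟨S, hS⟩ : ∃ S, S = IntermediateField.adjoin L (insert 1 (Set.range fun j => l j / t)) :=
    ⟨_, rfl⟩
  have h2 : ∀ j, l j / t ∈ S := fun j =>
    hS ▸ IntermediateField.subset_adjoin _ _ (Set.mem_insert_of_mem _ (Set.mem_range_self j))
  rw [← hS]
  have h3 : qf k l ≤ S.restrictScalars k := by
    refine IntermediateField.adjoin_le_iff.2 ?_
    rintro _ ⟨i, j, rfl⟩
    rw [SetLike.mem_coe, IntermediateField.mem_restrictScalars, ← div_div_div_cancel_right₀ ht]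
    exact div_mem (h2 j) (h2 i)
  refine eq_top_iff.2 fun x _ => ?_
  have h4 : x ∈ qf k l := by rw [hq]; exact IntermediateField.mem_top
  exact (IntermediateField.mem_restrictScalars k).1 (h3 h4)

omit [CharZero k] [Algebra.EssFiniteType k F] in
theorem span_mul_mem {U : ℕ → Set F} (hU : Gj.Ser U) (a b : ℕ) :
    ∀ x ∈ Submodule.span k (U a), ∀ y ∈ Submodule.span k (U b),
      x * y ∈ Submodule.span k (U (a + b)) := fun x hx y hy => by
  have := Submodule.mul_mem_mul hx hy
  rw [Submodule.span_mul_span] at this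
  refine Submodule.span_mono ?_ this
  rintro _ ⟨v, hv, w, hw, rfl⟩
  exact hU.mul a b v hv w hw

/-- **uniform lower bound for the Hilbert function** -/
theorem hil : Vol77.HilStmt := by
  intro E K _ _ _ _ _ U hU N l hl h0 hq δ u q hδ hle hfin
  have ha : Algebra.IsAlgebraic (mxf E l).sf K := ⟨fun x =>
    isAlgebraic_algebraMap (⟨x, qf_le_sf l (by rw [hq]; exact IntermediateField.mem_top)⟩ :
      (mxf E l).sf)⟩
  obtain ⟨M, hM, ht⟩ := exists_mdl_of (h := mxf E l) (mem_Sec_mxf l) (exists_val_mxf h0) ha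
  have := M.fin
  have h1 : ∀ j, M.t j ∈ Submodule.span E (U 1) := fun j =>
    Submodule.span_mono (Set.range_subset_iff.2 hl) (ht j)
  have t0 : M.t 0 ≠ 0 := M.c.t_ne 0
  have h2 : ∀ x ∈ insert 1 (Set.range fun j => l j / M.t 0), M.t 0 * x ∈ Submodule.span E (U 1) := by
    rintro _ (rfl | ⟨j, rfl⟩)
    · rw [mul_one]
      exact h1 0
    · rw [mul_div_cancel₀ _ t0]
      exact Submodule.subset_span (hl j)
  have h3 : ∀ i, M.t 0 * algebraMap (qf E M.t) K (xx M i) ∈ Submodule.span E (U 1) := fun i => by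
    change M.t 0 * (M.t i.succ / M.t 0) ∈ _
    rw [mul_div_cancel₀ _ t0]
    exact h1 _
  have h4 : δ ≤ finrank (qf E M.t) K := by
    have h5 := Mdl.bnum_le M
    rw [hM] at h5
    exact_mod_cast hδ.trans h5
  have h6 := card_le_finrank (S := fun q => Submodule.span E (U q)) (Submodule.subset_span hU.one)
    (span_mul_mem hU) t0 (Set.mem_insert _ _) (adjoin_top _ t0 hq) h2 (ai_xx M) h3 (u := u) (q := q)
    h4 (by rwa [Fintype.card_fin])
  rwa [Fintype.card_fin] at h6

end Crest.Agent.X262.Wr72
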