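import Crest.Agent.X277.Jet.Dvr
import Crest.Agent.X277.Jet.Gen
import Crest.Agent.R276.DivVal13_858

/-!
# Row 262, Wr72 (helper72), part 1: values of full Wronskians

`v` is any valuation of `K`.

* `Kv v b g`      : `g` is the largest value of a Jacobian (against the basis `b`) of elements of
                    the valuation ring, i.e. the value of a local generator of the canonical class;
* `Kv.exists_fr`  : such a `g` gives a frame which preserves the valuation ring;
* `exists_kv`, `kv_triv`, `exists_kv_res` : existence (divisorial, trivial, restriction);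
* `Kv.v_W_le`     : the value of a full Wronskian; `exists_W_of_gen`;
* `exists_tower`, `Tow.jc`, `Tow.pres` : frames of a tower `E ≤ M ≤ K`, relative Jacobians.
-/

set_option autoImplicit false
set_option linter.unusedSectionVars false

noncomputable section

namespace Crest.Agent.X262.Wr72

open Module Crest.Agent.X277 Crest.Agent.X277.Jet Crest.Agent.X277.Ts Crest.Agent.X277.Cns
open Crest.Agent.R276 Crest.Agent.R276.FKDefs_779 Crest.Agent.R276.DivVal_858

variable {E K ι Γ : Type*} [Field E] [Field K] [Algebra E K] [Fintype ι] [DecidableEq ι]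
  [LinearOrderedCommGroupWithZero Γ]

/-- the Jacobian of `z` against a basis of differentials -/
def jb (b : Basis ι K Ω[K⁄E]) (z : ι → K) : K := b.det fun i => KaehlerDifferential.D E K (z i)

theorem jb_basis (X : Fr E K ι) (z : ι → K) : jb X.basis z = X.jc z := (X.jc_eq_det z).symm

theorem jb_eq_jac {n : ℕ} (b : Basis (Fin n) K Ω[K⁄E]) (z : Fin n → K) : jb b z = jac E b z := by
  unfold jb jac
  convert rfl

theorem jb_change (b b' : Basis ι K Ω[K⁄E]) (z : ι → K) : jb b' z = b'.det b * jb b z := by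
  unfold jb
  conv_lhs => rw [AlternatingMap.eq_smul_basis_det b b'.det]
  simp

/-- `g` is the value of a local generator of the canonical class -/
def Kv (v : Valuation K Γ) (b : Basis ι K Ω[K⁄E]) (g : Γ) : Prop :=
  (∃ z : ι → K, (∀ i, v (z i) ≤ 1) ∧ v (jb b z) = g) ∧
    ∀ z : ι → K, (∀ i, v (z i) ≤ 1) → v (jb b z) ≤ g

/-- the frame `Z` preserves the valuation ring -/
def FAt (v : Valuation K Γ) (Z : Fr E K ι) : Prop :=
  (∀ i, v (Z.y i) ≤ 1) ∧ ∀ i x, v x ≤ 1 → v (Z.D i x) ≤ 1

variable {v : Valuation K Γ} {b b' : Basis ι K Ω[K⁄E]} {g g' c : Γ} {X Z : Fr E K ι}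

theorem v_det_le {α : Type*} [Fintype α] [DecidableEq α] {A : Matrix α α K}
    (h : ∀ i j, v (A i j) ≤ 1) : v A.det ≤ 1 := by
  rw [Matrix.det_apply]
  refine v.map_sum_le fun s _ => ?_
  rw [Units.smul_def, zsmul_eq_mul, map_mul, map_prod]
  refine mul_le_one' ?_ (Finset.prod_le_one' fun i _ => h _ _)
  rcases Int.units_eq_one_or (Equiv.Perm.sign s) with h | h <;> simp [h]

theorem Kv.unique (h : Kv v b g) (h' : Kv v b g') : g = g' := by
  obtain ⟨z, hz, rfl⟩ := h.1
  obtain ⟨z', hz', rfl⟩ := h'.1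
  exact le_antisymm (h'.2 z hz) (h.2 z' hz')

theorem Kv.change (h : Kv v b g) (b' : Basis ι K Ω[K⁄E]) : Kv v b' (v (b'.det b) * g) := by
  obtain ⟨z, hz, rfl⟩ := h.1
  refine ⟨⟨z, hz, by rw [jb_change b, map_mul]⟩, fun w hw => ?_⟩
  rw [jb_change b, map_mul]
  exact mul_le_mul_right (h.2 w hw) _

theorem FAt.v_jc (h : FAt v Z) {z : ι → K} (hz : ∀ i, v (z i) ≤ 1) : v (Z.jc z) ≤ 1 :=
  v_det_le fun i j => h.2 i _ (hz j)

theorem FAt.kv (h : FAt v Z) (X : Fr E K ι) : Kv v X.basis (v (X.jc Z.y)) := by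
  refine ⟨⟨Z.y, h.1, by rw [jb_basis]⟩, fun z hz => ?_⟩
  rw [jb_basis, X.jc_chain Z, map_mul]
  exact mul_le_of_le_one_right' (h.v_jc hz)

theorem y_ne (X : Fr E K ι) (i : ι) : X.y i ≠ 0 := fun h => by
  have := X.dual i i
  rw [h, map_zero, if_pos rfl] at this
  exact zero_ne_one this

/-- some Jacobian of elements of the valuation ring is not zero -/
theorem exists_jc_ne (v : Valuation K Γ) (X : Fr E K ι) :
    ∃ z : ι → K, (∀ i, v (z i) ≤ 1) ∧ X.jc z ≠ 0 := by
  have h : ∀ i, ∃ z a : K, v z ≤ 1 ∧ a ≠ 0 ∧ ∀ j, X.D j z = if j = i then a else 0 := fun i => by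
    rcases le_total (v (X.y i)) 1 with h | h
    · exact ⟨X.y i, 1, h, one_ne_zero, fun j => X.dual j i⟩
    · refine ⟨(X.y i)⁻¹, -(X.y i)⁻¹ ^ 2, by rw [map_inv₀]; exact inv_le_one_of_one_le₀ h,
        neg_ne_zero.2 (pow_ne_zero _ (inv_ne_zero (y_ne X i))), fun j => ?_⟩
      rw [Derivation.leibniz_inv, X.dual]
      split_ifs <;> simp
  choose z a h1 h2 h3 using h
  refine ⟨z, h1, ?_⟩
  rw [Fr.jc, show (Matrix.of fun i j => X.D i (z j)) = Matrix.diagonal a by
    ext i j
    rw [Matrix.of_apply, h3, Matrix.diagonal_apply]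
    split_ifs with h
    · rw [h]
    · rfl, Matrix.det_diagonal]
  exact Finset.prod_ne_zero_iff.2 fun i _ => h2 i

theorem Kv.ne (h : Kv v X.basis g) : g ≠ 0 := by
  obtain ⟨z, hz, h0⟩ := exists_jc_ne v X
  have := h.2 z hz
  rw [jb_basis] at this
  exact ((zero_lt_iff.2 ((Valuation.ne_zero_iff v).2 h0)).trans_le this).ne'

theorem jc_update (Z : Fr E K ι) (i : ι) (f : K) : Z.jc (Function.update Z.y i f) = Z.D i f := by
  rw [Fr.jc, show (Matrix.of fun a j => Z.D a (Function.update Z.y i f j)) =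
      (1 : Matrix ι ι K).updateCol i fun a => Z.D a f by
    ext a j
    rw [Matrix.of_apply, Matrix.updateCol_apply, Function.update_apply]
    split_ifs
    · rfl
    · rw [Z.dual, Matrix.one_apply], ← Matrix.cramer_apply, Matrix.cramer_one]
  rfl

/-- a maximal Jacobian gives a frame which preserves the valuation ring -/
theorem Kv.exists_fr (h : Kv v X.basis g) : ∃ Z : Fr E K ι, FAt v Z ∧ v (X.jc Z.y) = g := by
  obtain ⟨z, hz, hg⟩ := h.1
  rw [jb_basis] at hg
  have h0 : X.jc z ≠ 0 := fun h0 => h.ne (by rw [← hg, h0, map_zero])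
  obtain ⟨Z, rfl⟩ := X.exists_of_jac z h0
  refine ⟨Z, ⟨hz, fun i f hf => ?_⟩, hg⟩
  have h1 := h.2 (Function.update Z.y i f) fun j => by
    rw [Function.update_apply]
    split_ifs
    · exact hf
    · exact hz j
  rw [jb_basis, X.jc_chain Z, jc_update, map_mul, hg] at h1
  exact (mul_le_iff_le_one_right (zero_lt_iff.2 h.ne)).1 h1

/-- a derivation which is bounded on the coordinates of a regular frame is bounded -/
theorem FAt.v_der (h : FAt v Z) (D : Derivation E K K) (hD : ∀ i, v (D (Z.y i)) ≤ c) {x : K}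
    (hx : v x ≤ 1) : v (D x) ≤ c := by
  rw [Z.expand D]
  refine v.map_sum_le fun i _ => ?_
  rw [map_mul]
  exact (mul_le_of_le_one_right' (h.2 i x hx)).trans (hD i)

/-- the trivial valuation -/
theorem kv_triv (h : ∀ x, v x ≤ 1) (X : Fr E K ι) : Kv v X.basis 1 :=
  ⟨⟨X.y, fun _ => h _, by rw [jb_basis, X.jc_self, map_one]⟩, fun _ _ => h _⟩

/-! ### full Wronskians -/

/-- a family bounded by `c` is `h • σ` with `v h ≤ c` and `σ` integral -/
theorem exists_scale {α : Type*} [Finite α] [Nonempty α] {s : α → K} (hs : ∀ a, v (s a) ≤ c) :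
    ∃ (h : K) (σ : α → K), v h ≤ c ∧ (∀ a, v (σ a) ≤ 1) ∧ s = fun a => h * σ a := by
  obtain ⟨a₀, ha₀⟩ := Finite.exists_max fun a => v (s a)
  by_cases h0 : s a₀ = 0
  · refine ⟨0, fun _ => 0, by simp, by simp, funext fun a => ?_⟩
    have := ha₀ a
    rw [h0, map_zero, le_zero_iff, Valuation.zero_iff] at this
    simp [this]
  · refine ⟨s a₀, fun a => s a / s a₀, hs a₀, fun a => ?_, funext fun a => by field_simp⟩
    rw [map_div₀]
    exact div_le_one_of_le₀ (ha₀ a) zero_le

/-- the Wronskian of a commuting family which is a combination of a regular one -/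
theorem v_W_le {k : Type*} [CommRing k] [Algebra k K] (X Y : CD k K ι) (J : Matrix ι ι K)
    (hJ : ∀ i x, Y.D i x = ∑ j, J i j * X.D j x) (hX : ∀ i x, v x ≤ 1 → v (X.D i x) ≤ 1) {j : ℕ}
    {s : Le ι j → K} (hs : ∀ a, v (s a) ≤ c) :
    v (W Y (Le ι j) s) ≤ c ^ (Le ι j).card * v J.det ^ bb ι j := by
  have : Nonempty (Le ι j) := ⟨⟨0, mem_Le.2 (by simp)⟩⟩
  obtain ⟨h, σ, h1, h2, rfl⟩ := exists_scale hs
  rw [W_frame X Y J hJ, map_mul, map_mul, map_pow, map_pow]
  refine (mul_le_of_le_one_right' (v_det_le fun β a => ?_)).trans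
    (mul_le_mul_left (pow_le_pow_left' h1 _) _)
  exact X.dp_mem (S := {x | v x ≤ 1}) hX _ _ (h2 a)

/-- **(W1)** the value of a full Wronskian -/
theorem Kv.v_W_le (h : Kv v X.basis g) {j : ℕ} {s : Le ι j → K} (hs : ∀ a, v (s a) ≤ c) :
    v (W X.toCD (Le ι j) s) ≤ c ^ (Le ι j).card * g ^ bb ι j := by
  obtain ⟨Z, hZ, rfl⟩ := h.exists_fr
  exact Wr72.v_W_le Z.toCD X.toCD (Matrix.of fun i l => X.D i (Z.y l))
    (fun i x => Z.expand (X.D i) x) hZ.2 hs

/-- full jets give a nonzero Wronskian -/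
theorem exists_W_of_gen {Ω : Type*} [Field Ω] [Algebra E Ω] [CharZero Ω] (X : Fr E K ι)
    (φ : K →ₐ[E] Ω) {V : Set K} {j : ℕ} (h : Gj.Gen φ V (j + 1)) :
    ∃ s : Le ι j → K, (∀ a, s a ∈ V) ∧ W X.toCD (Le ι j) s ≠ 0 :=
  (X.gen_iff_det φ V j).1 h

/-- the exponent: `(n + 1) * bb = j * card` -/
theorem sum_degree (j : ℕ) :
    (Fintype.card ι + 1) * ∑ β ∈ Le ι j, β.degree = Fintype.card ι * (j * (Le ι j).card) := by
  induction j with
  | zero =>
    rw [Finset.sum_eq_zero fun β hβ => Nat.le_zero.1 (mem_Le.1 hβ)]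
    simp
  | succ j ih =>
    have hd : Disjoint (Le ι j) (Dg ι (j + 1)) := Finset.disjoint_left.2 fun β h h' => by
      rw [mem_Le] at h
      rw [mem_Dg] at h'
      omega
    have he : Le ι (j + 1) = Le ι j ∪ Dg ι (j + 1) := by
      ext β
      rw [Finset.mem_union, mem_Le, mem_Le, mem_Dg]
      omega
    have h1 : ∑ β ∈ Dg ι (j + 1), β.degree = (j + 1) * (Dg ι (j + 1)).card := by
      rw [Finset.sum_congr rfl fun β hβ => mem_Dg.1 hβ, Finset.sum_const, smul_eq_mul, mul_comm]
    have h2 : (j + 1) * (Dg ι (j + 1)).card = Fintype.card ι * (Le ι j).card := by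
      rw [card_Dg, card_Le, Nat.multichoose_eq]
      rcases Nat.eq_zero_or_pos (Fintype.card ι) with h | h
      · simp [h]
      · obtain ⟨n, hn⟩ : ∃ n, Fintype.card ι = n + 1 := ⟨_, (Nat.succ_pred_eq_of_pos h).symm⟩
        rw [hn, show n + 1 + (j + 1) - 1 = j + (n + 1) by omega,
          ← Nat.choose_symm_add (a := j) (b := n + 1)]
        have := Nat.choose_succ_right_eq (j + (n + 1)) j
        rw [show j + (n + 1) - j = n + 1 by omega] at this
        linarith
    rw [card_Le_succ, he, Finset.sum_union hd, mul_add, ih, h1]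
    generalize (Dg ι (j + 1)).card = d at *
    generalize (Le ι j).card = l at *
    generalize Fintype.card ι = n at *
    zify at *
    linear_combination h2

theorem succ_mul_bb [Nonempty ι] (j : ℕ) :
    (Fintype.card ι + 1) * bb ι j = j * (Le ι j).card := by
  obtain ⟨i⟩ := ‹Nonempty ι›
  have h := sum_degree (ι := ι) j
  rw [← card_mul_sum j i, sum_apply_eq_bb, mul_left_comm] at h
  exact Nat.eq_of_mul_eq_mul_left Fintype.card_pos h

/-! ### divisorial valuations -/

section Div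

variable [CharZero E] {n : ℕ}

theorem trdeg_fr (X : Fr E K (Fin n)) : Algebra.trdeg E K = n := by
  have := X.finite
  rw [trdeg_eq, ← X.card_eq, Fintype.card_fin]

variable [Algebra.EssFiniteType E K]

/-- **(W0)** -/
theorem exists_kv (X : Fr E K (Fin n)) (hv : IsDiv E n v.valuationSubring) :
    ∃ g, Kv v X.basis g := by
  obtain ⟨Z, hZ, -⟩ := exists_at (trdeg_fr X) hv
  exact ⟨_, FAt.kv (Z := Z) ⟨hZ.1, hZ.2⟩ X⟩

/-- **(W0)**, with a uniformiser among the coordinates -/
theorem exists_fAt (X : Fr E K (Fin n)) (hv : IsDiv E n v.valuationSubring) :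
    ∃ Z : Fr E K (Fin n), FAt v Z ∧ ∃ i₀, IsUnif v.valuationSubring (Z.y i₀) ∧
      ResInd E v.valuationSubring fun i : {i // i ≠ i₀} => Z.y i := by
  obtain ⟨Z, hZ, h⟩ := exists_at (trdeg_fr X) hv
  exact ⟨Z, ⟨hZ.1, hZ.2⟩, h⟩

omit [Algebra.EssFiniteType E K] in
/-- **(W0')** the restriction of a divisorial valuation to a subfield -/
theorem exists_kv_res {M : Type*} [Field M] [Algebra E M] [Algebra M K] [IsScalarTower E M K]
    [Algebra.EssFiniteType E M] {m : ℕ} (hn : Algebra.trdeg E K = n) (Y : Fr E M (Fin m))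
    (hv : IsDiv E n v.valuationSubring) : ∃ g, Kv (v.comap (algebraMap M K)) Y.basis g := by
  by_cases h : v.valuationSubring.comap (algebraMap M K) = ⊤
  · refine ⟨1, kv_triv (fun x => ?_) Y⟩
    have : x ∈ v.valuationSubring.comap (algebraMap M K) := h ▸ ValuationSubring.mem_top _
    exact this
  · exact exists_kv Y (restrict_of_ne_top hn (trdeg_fr Y) hv h).2.2.1

end Div

/-! ### towers -/

section Tower

variable {M κ : Type*} [Field M] [Algebra E M] [Algebra M K] [IsScalarTower E M K] [Fintype κ]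
  [DecidableEq κ]

/-- derivations of a subfield with values in the big field -/
theorem expand_up (Y : Fr E M ι) (D : Derivation E K K) (m : M) :
    D (algebraMap M K m) = ∑ i, D (algebraMap M K (Y.y i)) * algebraMap M K (Y.D i m) := by
  have h := congrArg (D.compAlgebraMap M).liftKaehlerDifferential (Y.d_eq m)
  simp only [map_sum, map_smul, Derivation.liftKaehlerDifferential_comp_D] at h
  refine h.trans (Finset.sum_congr rfl fun i _ => ?_)
  rw [Algebra.smul_def, mul_comm]
  rfl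

/-- `X` is the frame of `K / E` made of the frames `Z` of `K / M` and `Y` of `M / E` -/
structure Tow (X : Fr E K (κ ⊕ ι)) (Z : Fr M K κ) (Y : Fr E M ι) : Prop where
  yl : ∀ i, X.y (.inl i) = Z.y i
  yr : ∀ j, X.y (.inr j) = algebraMap M K (Y.y j)

theorem exists_tower [CharZero E] (Z : Fr M K κ) (Y : Fr E M ι) :
    ∃ X : Fr E K (κ ⊕ ι), Tow X Z Y := by
  have : CharZero M := charZero_of_injective_algebraMap (algebraMap E M).injective
  obtain ⟨X, hX⟩ := exists_fr_of_tb (Y.tb.sumElim_comp Z.tb)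
  exact ⟨X, fun i => by rw [hX]; rfl, fun j => by rw [hX]; rfl⟩

namespace Tow

variable {X : Fr E K (κ ⊕ ι)} {Z : Fr M K κ} {Y : Fr E M ι} (h : Tow X Z Y)
include h

theorem Dl (i : κ) (f : K) : X.D (.inl i) f = Z.D i f := by
  have : X.D (.inl i) = (Z.D i).restrictScalars E := X.ext_der fun j => by
    rw [X.dual, Derivation.restrictScalars_apply]
    rcases j with j | j
    · simp [h.yl, Z.dual]
    · simp [h.yr]
  rw [this]
  rfl

theorem Dr (j : ι) (m : M) : X.D (.inr j) (algebraMap M K m) = algebraMap M K (Y.D j m) := by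
  rw [expand_up Y]
  simp [← h.yr, X.dual]

/-- the Jacobian of a tower -/
theorem jc (f : κ → K) (z : ι → M) :
    X.jc (Sum.elim f fun j => algebraMap M K (z j)) = Z.jc f * algebraMap M K (Y.jc z) := by
  unfold Fr.jc
  rw [RingHom.map_det, ← Matrix.det_fromBlocks_zero₁₂ _ (Matrix.of fun j i => X.D (.inr j) (f i))]
  congr 1
  ext (i | i) (j | j)
  · simp [h.Dl]
  · simp [h.Dl]
  · simp
  · simp [h.Dr]

/-- **(PRES)** relative Jacobians of integral elements -/
theorem pres {gK gM : Γ} (hK : Kv v X.basis gK) (hM : Kv (v.comap (algebraMap M K)) Y.basis gM)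
    {f : κ → K} (hf : ∀ i, v (f i) ≤ 1) : v (Z.jc f) * gM ≤ gK := by
  obtain ⟨z, hz, rfl⟩ := hM.1
  have h1 := hK.2 (Sum.elim f fun j => algebraMap M K (z j)) (by
    rintro (i | j)
    · exact hf i
    · exact hz j)
  rwa [jb_basis, h.jc, map_mul, ← jb_basis Y] at h1

end Tow

/-- the Jacobian in a frame with one coordinate -/
theorem jc_unique [Unique κ] (Z : Fr M K κ) (f : K) : Z.jc (fun _ => f) = Z.D default f := by
  rw [Fr.jc, Matrix.det_unique]
  rfl

/-- **(PRES)** for a curve `K / M` -/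
theorem Tow.pres_one [Unique κ] {X : Fr E K (κ ⊕ ι)} {Z : Fr M K κ} {Y : Fr E M ι} (h : Tow X Z Y)
    {gK gM : Γ} (hK : Kv v X.basis gK) (hM : Kv (v.comap (algebraMap M K)) Y.basis gM) {f : K}
    (hf : v f ≤ 1) : v (Z.D default f) * gM ≤ gK := by
  rw [← jc_unique]
  exact h.pres hK hM fun _ => hf

end Tower

/-- the constants of a frame of a regular extension -/
theorem const_of_reg [CharZero E] [Algebra.EssFiniteType E K] (hE : Gj.Reg E K) (X : Fr E K ι)
    {f : K} (h : ∀ i, X.D i f = 0) : f ∈ (algebraMap E K).range := by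
  have : CharZero K := charZero_of_injective_algebraMap (algebraMap E K).injective
  have h1 : Gj.del (AlgHom.id E K) f = 0 := X.tayG_injective (AlgHom.id E K) (by
    ext β
    rw [Gj.del, map_sub, map_sub, X.coeff_tayG_tmul, X.coeff_tayG_tmul, map_zero]
    refine idx_induction (P := fun β => 1 * ((fac β : K)⁻¹ * AlgHom.id E K (X.dp β f)) -
      AlgHom.id E K f * ((fac β : K)⁻¹ * AlgHom.id E K (X.dp β 1)) = 0) ?_ ?_ β
    · simp [mul_comm]
    · intro i β _
      rw [← X.dp_D, ← X.dp_D, h]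
      simp)
  obtain ⟨l, hl⟩ : ∃ l : K →ₗ[E] E, l 1 = 1 := by
    obtain ⟨l, hl⟩ := (Algebra.linearMap E K).exists_leftInverse_of_injective
      (LinearMap.ker_eq_bot.2 (algebraMap E K).injective)
    exact ⟨l, by simpa using LinearMap.congr_fun hl 1⟩
  have h2 := congrArg (TensorProduct.lid E K ∘ TensorProduct.map l LinearMap.id) h1
  simp only [Gj.del, Function.comp_apply, map_sub, TensorProduct.map_tmul, hl, LinearMap.id_apply,
    TensorProduct.lid_tmul, one_smul, map_zero, AlgHom.coe_id, id_eq] at h2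
  exact ⟨l f, by rw [Algebra.algebraMap_eq_smul_one, ← sub_eq_zero.1 h2]⟩

end Crest.Agent.X262.Wr72
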