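import Crest.Agent.X262.Wr72.Val

/-!
# Row 262, Wr72 (helper72), part 2: Wronskians along one derivation

* `wr D s = det (D ^ i (s j))`;
* `wr_smul`     : `wr (u • D) (c s) = c ^ r * u ^ C(r,2) * wr D s`;
* `v_wr_le`     : **(W2)** `v (wr D s) * v u ^ C(r,2) ≤ c ^ r` if `u • D` preserves the ring;
* `wr_mul`      : `wr (e A) = wr e * det A` for a matrix of constants;
* `wr_ne_zero`, `wr_ne_zero_iff` : independence over the constants;
* `Tow.v_wr_le` : the bound in terms of the canonical values of `K` and `M`.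
-/

set_option autoImplicit false
set_option linter.unusedSectionVars false

noncomputable section

namespace Crest.Agent.X262.Wr72

open Module Crest.Agent.X277 Crest.Agent.X277.Jet Crest.Agent.X277.Ts

section Ring

variable {k K : Type*} [CommRing k] [CommRing K] [Algebra k K] {r : ℕ}

/-- the Wronskian along one derivation -/
def wr (D : Derivation k K K) (s : Fin r → K) : K :=
  (Matrix.of fun i j : Fin r => D^[i] (s j)).det

/-- one derivation as a commuting family -/
def cd1 (D : Derivation k K K) : CD k K Unit := ⟨fun _ => D, fun _ _ _ => rfl⟩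

theorem cd1_dp (D : Derivation k K K) (i : ℕ) (x : K) :
    (cd1 D).dp (Finsupp.single () i) x = D^[i] x := by
  rw [CD.dp_single, Module.End.pow_apply]
  rfl

/-- multi-indices in one variable -/
def eU (j : ℕ) : Fin (j + 1) ≃ Le Unit j where
  toFun i := ⟨Finsupp.single () i, mem_Le.2 (by simpa using Nat.lt_succ_iff.1 i.2)⟩
  invFun β := ⟨β.1 (), by
    have := mem_Le.1 β.2
    rw [Finsupp.degree_eq_sum] at this
    simpa [Nat.lt_succ_iff] using this⟩
  left_inv i := by simp
  right_inv β := by
    ext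
    simp

theorem wr_eq_W (D : Derivation k K K) {j : ℕ} (s : Fin (j + 1) → K) :
    wr D s = W (cd1 D) (Le Unit j) fun a => s ((eU j).symm a) := by
  rw [W, ← Matrix.det_submatrix_equiv_self (eU j), wr]
  congr 1
  ext a b
  simp only [Matrix.of_apply, Matrix.submatrix_apply, Equiv.symm_apply_apply]
  exact (cd1_dp D a _).symm

theorem card_Le_unit (j : ℕ) : (Le Unit j).card = j + 1 := by
  rw [card_Le]
  simp

theorem bb_unit (j : ℕ) : bb Unit j = (j + 1).choose 2 := by
  have h := succ_mul_bb (ι := Unit) j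
  rw [card_Le_unit, Fintype.card_unit] at h
  rw [Nat.choose_two_right, Nat.add_sub_cancel, mul_comm, ← h,
    Nat.mul_div_cancel_left _ (by norm_num)]

/-- transformation law -/
theorem wr_smul (D : Derivation k K K) (u c : K) (s : Fin r → K) :
    wr (u • D) (fun j => c * s j) = c ^ r * u ^ r.choose 2 * wr D s := by
  cases r with
  | zero => simp [wr]
  | succ j =>
    rw [wr_eq_W, wr_eq_W, W_frame (cd1 D) (cd1 (u • D)) (Matrix.of fun _ _ => u)
      (fun _ _ => by simp [cd1]), card_Le_unit, bb_unit, Matrix.det_unique]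
    rfl

theorem iter_sum (D : Derivation k K K) (i : ℕ) {α : Type*} (t : Finset α) (f : α → K) :
    D^[i] (∑ a ∈ t, f a) = ∑ a ∈ t, D^[i] (f a) := by
  induction i with
  | zero => rfl
  | succ i ih => simp only [Function.iterate_succ_apply', ih, map_sum]

theorem iter_const_mul (D : Derivation k K K) (i : ℕ) {a : K} (ha : D a = 0) (x : K) :
    D^[i] (a * x) = a * D^[i] x := by
  induction i with
  | zero => rfl
  | succ i ih => simp [Function.iterate_succ_apply', ih, ha]

/-- linear combinations with constant coefficients -/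
theorem wr_mul (D : Derivation k K K) (e : Fin r → K) (A : Matrix (Fin r) (Fin r) K)
    (hA : ∀ i j, D (A i j) = 0) : wr D (fun j => ∑ l, A l j * e l) = A.det * wr D e := by
  rw [wr, wr, mul_comm, ← Matrix.det_mul]
  congr 1
  ext i j
  rw [Matrix.of_apply, Matrix.mul_apply, iter_sum]
  exact Finset.sum_congr rfl fun l _ => by rw [iter_const_mul D i (hA l j), mul_comm]; rfl

/-- linear combinations over the ground ring -/
theorem wr_smul_mat (D : Derivation k K K) (e : Fin r → K) (A : Matrix (Fin r) (Fin r) k) :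
    wr D (fun j => ∑ l, A l j • e l) = algebraMap k K A.det * wr D e := by
  rw [RingHom.map_det, ← wr_mul D e ((algebraMap k K).mapMatrix A) fun i j => D.map_algebraMap _]
  simp [Algebra.smul_def]

theorem wr_restrict {k' : Type*} [CommRing k'] [Algebra k' k] [Algebra k' K]
    [IsScalarTower k' k K] (D : Derivation k K K) (s : Fin r → K) :
    wr (D.restrictScalars k') s = wr D s := rfl

end Ring

section Field

variable {k K Γ : Type*} [CommRing k] [Field K] [Algebra k K] {r : ℕ}
  [LinearOrderedCommGroupWithZero Γ] {v : Valuation K Γ} {c : Γ}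

theorem v_wr_le_one {D : Derivation k K K} (hD : ∀ f, v f ≤ 1 → v (D f) ≤ 1) {s : Fin r → K}
    (hs : ∀ j, v (s j) ≤ 1) : v (wr D s) ≤ 1 := by
  refine v_det_le fun i j => ?_
  rw [Matrix.of_apply]
  induction (i : ℕ) with
  | zero => exact hs j
  | succ i ih => rw [Function.iterate_succ_apply']; exact hD _ ih

/-- **(W2)** -/
theorem v_wr_le {D : Derivation k K K} {u : K} (hD : ∀ f, v f ≤ 1 → v (u * D f) ≤ 1)
    {s : Fin r → K} (hs : ∀ j, v (s j) ≤ c) : v (wr D s) * v u ^ r.choose 2 ≤ c ^ r := by
  cases r with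
  | zero => simp [wr]
  | succ j =>
    obtain ⟨h, σ, h1, h2, rfl⟩ := exists_scale hs
    have h3 := v_wr_le_one (D := u • D) hD h2
    have h4 := wr_smul D u 1 σ
    have h5 := wr_smul D 1 h σ
    simp only [one_mul, one_pow, one_smul, mul_one] at h4 h5
    rw [h5, map_mul, mul_assoc, mul_comm (v (wr D σ)), ← map_pow v u, ← map_mul, ← h4, map_pow]
    exact (mul_le_of_le_one_right' h3).trans (pow_le_pow_left' h1 _)

/-- **(W2)**, with a bound `g` in the value group of `v` -/
theorem v_wr_le' {D : Derivation k K K} {t : K} (hD : ∀ f, v f ≤ 1 → v (D f) ≤ v t) (ht : t ≠ 0)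
    {s : Fin r → K} (hs : ∀ j, v (s j) ≤ c) : v (wr D s) ≤ c ^ r * v t ^ r.choose 2 := by
  have h0 : 0 < v t := zero_lt_iff.2 ((Valuation.ne_zero_iff v).2 ht)
  have h := v_wr_le (D := D) (u := t⁻¹) (fun f hf => by
    rw [map_mul, map_inv₀, inv_mul_le_iff₀ h0, mul_one]
    exact hD f hf) hs
  rwa [map_inv₀, inv_pow, mul_inv_le_iff₀ (pow_pos h0 _)] at h

/-- a vanishing Wronskian gives a relation with constant coefficients -/
theorem exists_rel (D : Derivation k K K) : ∀ {r : ℕ} (s : Fin r → K), wr D s = 0 →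
    ∃ a : Fin r → K, a ≠ 0 ∧ (∀ j, D (a j) = 0) ∧ ∑ j, a j * s j = 0 := by
  intro r
  induction r with
  | zero => exact fun s h => absurd h (by simp [wr])
  | succ r ih =>
    intro s h
    by_cases h1 : wr D (fun j : Fin r => s j.succ) = 0
    · obtain ⟨a, ha, h2, h3⟩ := ih _ h1
      refine ⟨Fin.cons 0 a, fun h4 => ha (funext fun j => ?_), fun j => ?_, ?_⟩
      · simpa using congrFun h4 j.succ
      · refine Fin.cases ?_ (fun j => ?_) j
        · simp
        · simpa using h2 j
      · simpa [Fin.sum_univ_succ] using h3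
    obtain ⟨a, ha, h2⟩ := Matrix.exists_mulVec_eq_zero_iff.2 h
    have h3 : ∀ i ≤ r, ∑ j, D^[i] (s j) * a j = 0 := fun i hi =>
      congrFun h2 ⟨i, Nat.lt_succ_of_le hi⟩
    have h4 : ∀ b : Fin (r + 1) → K, b 0 = 0 → (∀ i < r, ∑ j, D^[i] (s j) * b j = 0) → b = 0 := by
      intro b h0 hb
      have := Matrix.eq_zero_of_mulVec_eq_zero h1 (v := fun j => b j.succ) (funext fun i => by
        have := hb i i.2
        rwa [Fin.sum_univ_succ, h0, mul_zero, zero_add] at this)
      funext j
      exact Fin.cases h0 (fun j => congrFun this j) j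
    have h5 : a 0 ≠ 0 := fun h0 => ha (h4 a h0 fun i hi => h3 i hi.le)
    have h6 : ∀ i ≤ r, ∑ j, D^[i] (s j) * (a j / a 0) = 0 := fun i hi => by
      simp only [← mul_div_assoc, ← Finset.sum_div, h3 i hi, zero_div]
    refine ⟨fun j => a j / a 0, fun h7 => one_ne_zero ((div_self h5).symm.trans (congrFun h7 0)),
      congrFun (h4 (fun j => D (a j / a 0)) (by simp [div_self h5]) fun i hi => ?_), ?_⟩
    · have h7 := congrArg D (h6 i hi.le)
      have h8 := h6 (i + 1) hi
      simp only [map_sum, Derivation.leibniz, smul_eq_mul, map_zero, Finset.sum_add_distrib,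
        Function.iterate_succ_apply'] at h7 h8
      rwa [Finset.sum_congr rfl fun j _ => mul_comm (a j / a 0) _, h8, add_zero] at h7
    · simpa [mul_comm] using h6 0 (Nat.zero_le _)

variable {M : Type*} [Field M] [Algebra M K]

/-- independent families have a nonzero Wronskian -/
theorem wr_ne_zero {D : Derivation k K K} (hD : ∀ x, D x = 0 → x ∈ (algebraMap M K).range)
    {s : Fin r → K} (hs : LinearIndependent M s) : wr D s ≠ 0 := fun h => by
  obtain ⟨a, ha, h1, h2⟩ := exists_rel D s h
  choose m hm using fun j => hD _ (h1 j)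
  refine ha (funext fun j => ?_)
  rw [← hm, Fintype.linearIndependent_iff.1 hs m (by simpa [Algebra.smul_def, hm] using h2) j]
  simp

theorem li_of_wr_ne {D : Derivation M K K} {s : Fin r → K} (h : wr D s ≠ 0) :
    LinearIndependent M s := by
  rw [Fintype.linearIndependent_iff]
  intro m hm j
  have := Matrix.eq_zero_of_mulVec_eq_zero h (v := fun j => algebraMap M K (m j)) (funext fun i => by
    have h1 := congrArg D^[i] hm
    rw [iter_sum, Function.iterate_fixed (map_zero D)] at h1
    change ∑ l, D^[i] (s l) * algebraMap M K (m l) = 0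
    refine Eq.trans (Finset.sum_congr rfl fun l _ => ?_) h1
    rw [Algebra.smul_def, iter_const_mul D i (D.map_algebraMap _), mul_comm])
  simpa using congrFun this j

theorem wr_ne_zero_iff {D : Derivation M K K} (hD : ∀ x, D x = 0 → x ∈ (algebraMap M K).range)
    {s : Fin r → K} : wr D s ≠ 0 ↔ LinearIndependent M s :=
  ⟨li_of_wr_ne, wr_ne_zero hD⟩

end Field

section Curve

variable {E M K ι κ Γ : Type*} [Field E] [Field M] [Field K] [Algebra E M] [Algebra M K]
  [Algebra E K] [IsScalarTower E M K] [Fintype ι] [DecidableEq ι] [Fintype κ] [DecidableEq κ]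
  [Unique κ] [LinearOrderedCommGroupWithZero Γ] {v : Valuation K Γ} {r : ℕ}

/-- on a regular curve `K / M` the Wronskian detects independence over `M` -/
theorem wr_fr_ne_iff [CharZero M] [Algebra.EssFiniteType M K] (hM : Gj.Reg M K) (Z : Fr M K κ)
    {s : Fin r → K} : wr (Z.D default) s ≠ 0 ↔ LinearIndependent M s :=
  wr_ne_zero_iff fun _ hx => const_of_reg hM Z fun i => Unique.eq_default i ▸ hx

/-- **(W2) + (PRES)** the leaf Wronskian against the canonical values of `K / E` and `M / E` -/
theorem Tow.v_wr_le {X : Fr E K (κ ⊕ ι)} {Z : Fr M K κ} {Y : Fr E M ι} (h : Tow X Z Y)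
    {gK gM c : Γ} (hK : Kv v X.basis gK) (hM : Kv (v.comap (algebraMap M K)) Y.basis gM)
    {s : Fin r → K} (hs : ∀ j, v (s j) ≤ c) :
    v (wr (Z.D default) s) * gM ^ r.choose 2 ≤ c ^ r * gK ^ r.choose 2 := by
  obtain ⟨z, -, hz⟩ := hK.1
  obtain ⟨w, -, hw⟩ := hM.1
  have h0 : 0 < gK := zero_lt_iff.2 hK.ne
  have hu : v (algebraMap M K (jb Y.basis w) / jb X.basis z) = gM / gK := by
    rw [map_div₀, hz, ← hw]
    rfl
  have h1 := Wr72.v_wr_le (D := Z.D default) (u := algebraMap M K (jb Y.basis w) / jb X.basis z)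
    (fun f hf => by
      rw [map_mul, hu, div_mul_eq_mul_div, div_le_one₀ h0, mul_comm]
      exact h.pres_one hK hM hf) hs
  rwa [hu, div_pow, ← mul_div_assoc, div_le_iff₀ (pow_pos h0 _)] at h1

end Curve

end Crest.Agent.X262.Wr72
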