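import Mathlib

/-!
# Row 262, Wr72 (helper72), part 3: algebra for the uniform Hilbert bound

* `exists_li_pow`   : independent elements of small degree in a finite extension;
* `card_le_finrank` : the count in a graded family of subspaces;
* `dv`, `exists_poly_of_val` : the degree valuation of a rational function field.
-/

set_option autoImplicit false

noncomputable section

namespace Crest.Agent.X262.Wr72

open Module MvPolynomial WithZero
open scoped Pointwise

section Deg

variable {M K : Type*} [Field M] [Field K] [Algebra M K] [FiniteDimensional M K] {T : Set K}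

theorem min_le_finrank (h1 : (1 : K) ∈ T) (hT : Algebra.adjoin M T = ⊤) (i : ℕ) :
    min (i + 1) (finrank M K) ≤ finrank M (Submodule.span M (T ^ i)) := by
  induction i with
  | zero =>
    refine (min_le_left _ _).trans ?_
    rw [pow_zero, ← Set.singleton_one, finrank_span_singleton one_ne_zero]
  | succ i ih =>
    have hle : Submodule.span M (T ^ i) ≤ Submodule.span M (T ^ (i + 1)) :=
      Submodule.span_mono fun x hx => by
        rw [pow_succ]
        exact ⟨x, hx, 1, h1, mul_one x⟩
    rcases hle.eq_or_lt with h | h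
    · have h2 : ∀ x ∈ Algebra.adjoin M T, ∀ y ∈ Submodule.span M (T ^ i),
          x * y ∈ Submodule.span M (T ^ i) := by
        intro x hx
        induction hx using Algebra.adjoin_induction with
        | mem x hx =>
          intro y hy
          rw [h, pow_succ', ← Submodule.span_mul_span]
          exact Submodule.mul_mem_mul (Submodule.subset_span hx) hy
        | algebraMap c => exact fun y hy => by rw [← Algebra.smul_def]; exact Submodule.smul_mem _ _ hy
        | add x x' _ _ hx hx' => exact fun y hy => by rw [add_mul]; exact add_mem (hx y hy) (hx' y hy)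
        | mul x x' _ _ hx hx' => exact fun y hy => by rw [mul_assoc]; exact hx _ (hx' y hy)
      have h3 : Submodule.span M (T ^ i) = ⊤ := eq_top_iff.2 fun x _ => by
        simpa using h2 x (hT ▸ Algebra.mem_top) 1 (Submodule.subset_span (Set.one_mem_pow h1))
      rw [← h, h3, finrank_top]
      exact min_le_right _ _
    · have := Submodule.finrank_lt_finrank_of_lt h
      omega

/-- independent elements of small degree -/
theorem exists_li_pow (h1 : (1 : K) ∈ T) (hT : Algebra.adjoin M T = ⊤) {δ : ℕ}
    (hδ : δ ≤ finrank M K) : ∃ b : Fin δ → K, (∀ i, b i ∈ T ^ δ) ∧ LinearIndependent M b := by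
  obtain ⟨κ, a, -, hs, hl⟩ := exists_linearIndependent' M (fun x : (T ^ δ : Set K) => (x : K))
  have : Finite κ := hl.finite
  have := Fintype.ofFinite κ
  have h2 := finrank_span_eq_card hl
  rw [hs, Subtype.range_coe] at h2
  have h3 := min_le_finrank h1 hT δ
  obtain ⟨e⟩ := Function.Embedding.nonempty_of_card_le (α := Fin δ) (β := κ) (by
    rw [Fintype.card_fin]
    omega)
  exact ⟨fun i => a (e i), fun i => (a (e i)).2, hl.comp e e.injective⟩

end Deg

theorem li_mon {R S ι : Type*} [Field R] [Field S] [Algebra R S] [Fintype ι] {y : ι → S}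
    (hy : AlgebraicIndependent R y) (m : ℕ) :
    LinearIndependent R fun β : ι → Fin m => ∏ i, y i ^ (β i : ℕ) := by
  have h := ((MvPolynomial.basisMonomials ι R).linearIndependent.map'
    (MvPolynomial.aeval y).toLinearMap (LinearMap.ker_eq_bot.2 hy)).comp
    (fun β : ι → Fin m => Finsupp.equivFunOnFinite.symm fun i => (β i : ℕ))
    fun β β' h => funext fun i => Fin.ext (congrFun (Finsupp.equivFunOnFinite.symm.injective h) i)
  refine (congrArg (fun v => LinearIndependent R v) (funext fun β => ?_)).mp h
  simp [MvPolynomial.aeval_monomial, Finsupp.prod_fintype]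

/-- the count -/
theorem card_le_finrank {E M K ι : Type*} [Field E] [Field M] [Field K] [Algebra E M] [Algebra M K]
    [Algebra E K] [IsScalarTower E M K] [FiniteDimensional M K] [Fintype ι] {S : ℕ → Submodule E K}
    (S0 : (1 : K) ∈ S 0) (hS : ∀ a b, ∀ x ∈ S a, ∀ y ∈ S b, x * y ∈ S (a + b)) {t : K} (ht : t ≠ 0)
    {T : Set K} (h1 : (1 : K) ∈ T) (hT : Algebra.adjoin M T = ⊤) (h2 : ∀ x ∈ T, t * x ∈ S 1)
    {y : ι → M} (hy : AlgebraicIndependent E y) (h3 : ∀ i, t * algebraMap M K (y i) ∈ S 1)
    {δ u q : ℕ} (hδ : δ ≤ finrank M K) (hq : δ + Fintype.card ι * u ≤ q)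
    [FiniteDimensional E (S q)] : δ * u ^ Fintype.card ι ≤ finrank E (S q) := by
  classical
  obtain ⟨b, hb, hl⟩ := exists_li_pow h1 hT hδ
  have G0 : t ^ 0 * 1 ∈ S 0 := by simpa using S0
  have Gm : ∀ {i j : ℕ} {x y : K}, t ^ i * x ∈ S i → t ^ j * y ∈ S j →
      t ^ (i + j) * (x * y) ∈ S (i + j) := fun {i j x y} hx hy => by
    rw [pow_add, mul_mul_mul_comm]
    exact hS _ _ _ hx _ hy
  have Gp : ∀ {x : K}, t * x ∈ S 1 → ∀ i, t ^ i * x ^ i ∈ S i := fun {x} hx i => by
    induction i with
    | zero => simpa using S0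
    | succ i ih => rw [pow_succ x]; exact Gm ih (by rwa [pow_one])
  have Gl : ∀ {i j : ℕ} {x : K}, i ≤ j → t ^ i * x ∈ S i → t ^ j * x ∈ S j := fun {i j x} h hx => by
    obtain ⟨l, rfl⟩ := Nat.exists_eq_add_of_le h
    simpa using Gm hx (Gp (h2 1 h1) l)
  have GT : ∀ i, ∀ x ∈ T ^ i, t ^ i * x ∈ S i := fun i => by
    induction i with
    | zero => rintro x rfl; exact G0
    | succ i ih =>
      rw [pow_succ T]
      rintro _ ⟨x, hx, y, hy, rfl⟩
      exact Gm (ih x hx) (by rw [pow_one]; exact h2 y hy)
  have GP : ∀ (β : ι → Fin u) (s : Finset ι), t ^ (s.card * u) *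
      ∏ i ∈ s, algebraMap M K (y i) ^ (β i : ℕ) ∈ S (s.card * u) := fun β s => by
    induction s using Finset.induction_on with
    | empty => simpa using S0
    | insert i s hi ih =>
      rw [Finset.prod_insert hi, Finset.card_insert_of_notMem hi, add_mul, one_mul, add_comm]
      exact Gm (Gl (β i).2.le (Gp (h3 i) _)) ih
  have h4 := (linearIndependent_smul (li_mon hy u) hl).map' (LinearMap.mulLeft E (t ^ q))
    (LinearMap.ker_eq_bot.2 (mul_right_injective₀ (pow_ne_zero q ht)))
  have h5 : ∀ p : (ι → Fin u) × Fin δ, t ^ q * ((∏ i, y i ^ (p.1 i : ℕ)) • b p.2) ∈ S q := fun p => by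
    rw [Algebra.smul_def, map_prod]
    simp only [map_pow]
    exact Gl (by rw [Finset.card_univ]; omega) (Gm (GP p.1 Finset.univ) (GT δ _ (hb p.2)))
  have h6 := (LinearIndependent.of_comp (Submodule.subtype _)
    (v := fun p => (⟨_, h5 p⟩ : S q)) h4).fintype_card_le_finrank
  simpa [mul_comm] using h6

section Val

variable (σ k : Type*) [Field k]

open Classical in
/-- the degree valuation -/
def dv : Valuation (MvPolynomial σ k) ℤᵐ⁰ where
  toFun p := if p = 0 then 0 else exp (p.totalDegree : ℤ)
  map_zero' := by simp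
  map_one' := by simp
  map_mul' p q := by
    by_cases hp : p = 0
    · simp [hp]
    by_cases hq : q = 0
    · simp [hq]
    rw [if_neg (mul_ne_zero hp hq), if_neg hp, if_neg hq, totalDegree_mul_of_isDomain hp hq,
      Nat.cast_add, exp_add]
  map_add_le_max' p q := by
    by_cases hp : p = 0
    · simp [hp]
    by_cases hq : q = 0
    · simp [hq]
    rw [if_neg hp, if_neg hq]
    split_ifs
    · exact zero_le
    · rcases le_max_iff.1 (totalDegree_add p q) with h | h
      · exact le_max_of_le_left (exp_le_exp.2 (by exact_mod_cast h))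
      · exact le_max_of_le_right (exp_le_exp.2 (by exact_mod_cast h))

variable {σ k}

theorem dv_of_ne {p : MvPolynomial σ k} (hp : p ≠ 0) : dv σ k p = exp (p.totalDegree : ℤ) :=
  if_neg hp

theorem dv_le {p : MvPolynomial σ k} {m : ℕ} : dv σ k p ≤ exp (m : ℤ) ↔ p.totalDegree ≤ m := by
  by_cases hp : p = 0
  · simp [hp]
  · rw [dv_of_ne hp, exp_le_exp, Nat.cast_le]

/-- a rational function which is integral over the polynomials and has a pole of order at most `m`
at infinity is a polynomial of degree at most `m` -/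
theorem exists_poly_of_val {F : Type*} [Field F] [Algebra k F] {x : σ → F}
    (hx : AlgebraicIndependent k x) (hF : IntermediateField.adjoin k (Set.range x) = ⊤) {g : F}
    (h1 : IsIntegral (aeval x : MvPolynomial σ k →ₐ[k] F).range g) {m : ℕ}
    (h2 : ∀ v : Valuation F ℤᵐ⁰, (∀ c, v (algebraMap k F c) ≤ 1) → (∀ j, v (x j) ≤ exp 1) →
      v g ≤ exp (m : ℤ)) : ∃ p : MvPolynomial σ k, p.totalDegree ≤ m ∧ aeval x p = g := by
  let A := MvPolynomial σ k
  let φ : A →ₐ[k] F := aeval x
  let _ : Algebra A F := φ.toAlgebra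
  have : FaithfulSMul A F := (faithfulSMul_iff_algebraMap_injective A F).2 hx
  have : IsFractionRing A F := IsFractionRing.of_field A F fun z =>
    (IntermediateField.mem_adjoin_range_iff k x z).1 (hF ▸ IntermediateField.mem_top)
  let _ : Algebra A φ.range := φ.rangeRestrict.toAlgebra
  have : IsScalarTower A φ.range F := IsScalarTower.of_algebraMap_eq fun _ => rfl
  have : Algebra.IsIntegral A φ.range := Algebra.isIntegral_of_surjective φ.rangeRestrict_surjective
  obtain ⟨p, hp⟩ := IsIntegrallyClosed.algebraMap_eq_of_integral (isIntegral_trans (R := A) g h1)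
  have hS : nonZeroDivisors A ≤ (dv σ k).supp.primeCompl := fun a ha h0 => by
    have h3 : dv σ k a = 0 := h0
    rw [dv_of_ne (nonZeroDivisors.ne_zero ha)] at h3
    exact exp_ne_zero h3
  have h3 : ∀ a : A, (dv σ k).extendToLocalization hS F (aeval x a) = dv σ k a :=
    (dv σ k).extendToLocalization_apply_map_apply hS F
  refine ⟨p, dv_le.1 ?_, hp⟩
  rw [← h3]
  refine hp ▸ h2 _ (fun c => ?_) fun j => ?_
  · rw [← aeval_C x, h3]
    exact (dv_le (m := 0)).2 (totalDegree_C c).le
  · rw [← aeval_X (R := k) x j, h3]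
    exact (dv_le (m := 1)).2 (totalDegree_X j).le

end Val

end Crest.Agent.X262.Wr72
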